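import Vale.Agent.Lib.P154.TM.Prog

/-!
Polynomials of total degree at most four in three variables as a flat record of natural numbers, and
the same operations as in the nested form, written out. The kernel evaluates these much faster.
-/

namespace Vale.Agent.Lib.P154.TM

/-- the coefficients, in the order of the nested form -/
structure V where
  (c0 c1 c2 c3 c4 c5 c6 c7 c8 c9 c10 c11 c12 c13 c14 c15 c16 c17 c18 c19 c20 c21 c22 c23 c24 c25 c26 c27 c28 c29 c30 c31 c32 c33 c34 : Nat)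

/-- the nested form -/
def toP3 : V → P3
  | ⟨x0,x1,x2,x3,x4,x5,x6,x7,x8,x9,x10,x11,x12,x13,x14,x15,x16,x17,x18,x19,x20,x21,x22,x23,x24,x25,x26,x27,x28,x29,x30,x31,x32,x33,x34⟩ =>
    [[[x0, x1, x2, x3, x4], [x5, x6, x7, x8], [x9, x10, x11], [x12, x13], [x14]], [[x15, x16, x17, x18], [x19, x20, x21], [x22, x23], [x24]], [[x25, x26, x27], [x28, x29], [x30]], [[x31, x32], [x33]], [[x34]]]

/-- the truncated product -/
def mulV : V → V → V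
  | ⟨x0,x1,x2,x3,x4,x5,x6,x7,x8,x9,x10,x11,x12,x13,x14,x15,x16,x17,x18,x19,x20,x21,x22,x23,x24,x25,x26,x27,x28,x29,x30,x31,x32,x33,x34⟩, ⟨y0,y1,y2,y3,y4,y5,y6,y7,y8,y9,y10,y11,y12,y13,y14,y15,y16,y17,y18,y19,y20,y21,y22,y23,y24,y25,y26,y27,y28,y29,y30,y31,y32,y33,y34⟩ =>
    ⟨Nat.mul x0 y0,
     Nat.add (Nat.mul x0 y1) (Nat.mul x1 y0),
     Nat.add (Nat.mul x0 y2) (Nat.add (Nat.mul x1 y1) (Nat.mul x2 y0)),
     Nat.add (Nat.mul x0 y3) (Nat.add (Nat.mul x1 y2) (Nat.add (Nat.mul x2 y1) (Nat.mul x3 y0))),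
     Nat.add (Nat.mul x0 y4) (Nat.add (Nat.mul x1 y3) (Nat.add (Nat.mul x2 y2) (Nat.add (Nat.mul x3 y1) (Nat.mul x4 y0)))),
     Nat.add (Nat.mul x0 y5) (Nat.mul x5 y0),
     Nat.add (Nat.add (Nat.mul x0 y6) (Nat.mul x1 y5)) (Nat.add (Nat.mul x5 y1) (Nat.mul x6 y0)),
     Nat.add (Nat.add (Nat.mul x0 y7) (Nat.add (Nat.mul x1 y6) (Nat.mul x2 y5))) (Nat.add (Nat.mul x5 y2) (Nat.add (Nat.mul x6 y1) (Nat.mul x7 y0))),
     Nat.add (Nat.add (Nat.mul x0 y8) (Nat.add (Nat.mul x1 y7) (Nat.add (Nat.mul x2 y6) (Nat.mul x3 y5)))) (Nat.add (Nat.mul x5 y3) (Nat.add (Nat.mul x6 y2) (Nat.add (Nat.mul x7 y1) (Nat.mul x8 y0)))),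
     Nat.add (Nat.mul x0 y9) (Nat.add (Nat.mul x5 y5) (Nat.mul x9 y0)),
     Nat.add (Nat.add (Nat.mul x0 y10) (Nat.mul x1 y9)) (Nat.add (Nat.add (Nat.mul x5 y6) (Nat.mul x6 y5)) (Nat.add (Nat.mul x9 y1) (Nat.mul x10 y0))),
     Nat.add (Nat.add (Nat.mul x0 y11) (Nat.add (Nat.mul x1 y10) (Nat.mul x2 y9))) (Nat.add (Nat.add (Nat.mul x5 y7) (Nat.add (Nat.mul x6 y6) (Nat.mul x7 y5))) (Nat.add (Nat.mul x9 y2) (Nat.add (Nat.mul x10 y1) (Nat.mul x11 y0)))),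
     Nat.add (Nat.mul x0 y12) (Nat.add (Nat.mul x5 y9) (Nat.add (Nat.mul x9 y5) (Nat.mul x12 y0))),
     Nat.add (Nat.add (Nat.mul x0 y13) (Nat.mul x1 y12)) (Nat.add (Nat.add (Nat.mul x5 y10) (Nat.mul x6 y9)) (Nat.add (Nat.add (Nat.mul x9 y6) (Nat.mul x10 y5)) (Nat.add (Nat.mul x12 y1) (Nat.mul x13 y0)))),
     Nat.add (Nat.mul x0 y14) (Nat.add (Nat.mul x5 y12) (Nat.add (Nat.mul x9 y9) (Nat.add (Nat.mul x12 y5) (Nat.mul x14 y0)))),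
     Nat.add (Nat.mul x0 y15) (Nat.mul x15 y0),
     Nat.add (Nat.add (Nat.mul x0 y16) (Nat.mul x1 y15)) (Nat.add (Nat.mul x15 y1) (Nat.mul x16 y0)),
     Nat.add (Nat.add (Nat.mul x0 y17) (Nat.add (Nat.mul x1 y16) (Nat.mul x2 y15))) (Nat.add (Nat.mul x15 y2) (Nat.add (Nat.mul x16 y1) (Nat.mul x17 y0))),
     Nat.add (Nat.add (Nat.mul x0 y18) (Nat.add (Nat.mul x1 y17) (Nat.add (Nat.mul x2 y16) (Nat.mul x3 y15)))) (Nat.add (Nat.mul x15 y3) (Nat.add (Nat.mul x16 y2) (Nat.add (Nat.mul x17 y1) (Nat.mul x18 y0)))),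
     Nat.add (Nat.add (Nat.mul x0 y19) (Nat.mul x5 y15)) (Nat.add (Nat.mul x15 y5) (Nat.mul x19 y0)),
     Nat.add (Nat.add (Nat.add (Nat.mul x0 y20) (Nat.mul x1 y19)) (Nat.add (Nat.mul x5 y16) (Nat.mul x6 y15))) (Nat.add (Nat.add (Nat.mul x15 y6) (Nat.mul x16 y5)) (Nat.add (Nat.mul x19 y1) (Nat.mul x20 y0))),
     Nat.add (Nat.add (Nat.add (Nat.mul x0 y21) (Nat.add (Nat.mul x1 y20) (Nat.mul x2 y19))) (Nat.add (Nat.mul x5 y17) (Nat.add (Nat.mul x6 y16) (Nat.mul x7 y15)))) (Nat.add (Nat.add (Nat.mul x15 y7) (Nat.add (Nat.mul x16 y6) (Nat.mul x17 y5))) (Nat.add (Nat.mul x19 y2) (Nat.add (Nat.mul x20 y1) (Nat.mul x21 y0)))),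
     Nat.add (Nat.add (Nat.mul x0 y22) (Nat.add (Nat.mul x5 y19) (Nat.mul x9 y15))) (Nat.add (Nat.mul x15 y9) (Nat.add (Nat.mul x19 y5) (Nat.mul x22 y0))),
     Nat.add (Nat.add (Nat.add (Nat.mul x0 y23) (Nat.mul x1 y22)) (Nat.add (Nat.add (Nat.mul x5 y20) (Nat.mul x6 y19)) (Nat.add (Nat.mul x9 y16) (Nat.mul x10 y15)))) (Nat.add (Nat.add (Nat.mul x15 y10) (Nat.mul x16 y9)) (Nat.add (Nat.add (Nat.mul x19 y6) (Nat.mul x20 y5)) (Nat.add (Nat.mul x22 y1) (Nat.mul x23 y0)))),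
     Nat.add (Nat.add (Nat.mul x0 y24) (Nat.add (Nat.mul x5 y22) (Nat.add (Nat.mul x9 y19) (Nat.mul x12 y15)))) (Nat.add (Nat.mul x15 y12) (Nat.add (Nat.mul x19 y9) (Nat.add (Nat.mul x22 y5) (Nat.mul x24 y0)))),
     Nat.add (Nat.mul x0 y25) (Nat.add (Nat.mul x15 y15) (Nat.mul x25 y0)),
     Nat.add (Nat.add (Nat.mul x0 y26) (Nat.mul x1 y25)) (Nat.add (Nat.add (Nat.mul x15 y16) (Nat.mul x16 y15)) (Nat.add (Nat.mul x25 y1) (Nat.mul x26 y0))),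
     Nat.add (Nat.add (Nat.mul x0 y27) (Nat.add (Nat.mul x1 y26) (Nat.mul x2 y25))) (Nat.add (Nat.add (Nat.mul x15 y17) (Nat.add (Nat.mul x16 y16) (Nat.mul x17 y15))) (Nat.add (Nat.mul x25 y2) (Nat.add (Nat.mul x26 y1) (Nat.mul x27 y0)))),
     Nat.add (Nat.add (Nat.mul x0 y28) (Nat.mul x5 y25)) (Nat.add (Nat.add (Nat.mul x15 y19) (Nat.mul x19 y15)) (Nat.add (Nat.mul x25 y5) (Nat.mul x28 y0))),
     Nat.add (Nat.add (Nat.add (Nat.mul x0 y29) (Nat.mul x1 y28)) (Nat.add (Nat.mul x5 y26) (Nat.mul x6 y25))) (Nat.add (Nat.add (Nat.add (Nat.mul x15 y20) (Nat.mul x16 y19)) (Nat.add (Nat.mul x19 y16) (Nat.mul x20 y15))) (Nat.add (Nat.add (Nat.mul x25 y6) (Nat.mul x26 y5)) (Nat.add (Nat.mul x28 y1) (Nat.mul x29 y0)))),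
     Nat.add (Nat.add (Nat.mul x0 y30) (Nat.add (Nat.mul x5 y28) (Nat.mul x9 y25))) (Nat.add (Nat.add (Nat.mul x15 y22) (Nat.add (Nat.mul x19 y19) (Nat.mul x22 y15))) (Nat.add (Nat.mul x25 y9) (Nat.add (Nat.mul x28 y5) (Nat.mul x30 y0)))),
     Nat.add (Nat.mul x0 y31) (Nat.add (Nat.mul x15 y25) (Nat.add (Nat.mul x25 y15) (Nat.mul x31 y0))),
     Nat.add (Nat.add (Nat.mul x0 y32) (Nat.mul x1 y31)) (Nat.add (Nat.add (Nat.mul x15 y26) (Nat.mul x16 y25)) (Nat.add (Nat.add (Nat.mul x25 y16) (Nat.mul x26 y15)) (Nat.add (Nat.mul x31 y1) (Nat.mul x32 y0)))),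
     Nat.add (Nat.add (Nat.mul x0 y33) (Nat.mul x5 y31)) (Nat.add (Nat.add (Nat.mul x15 y28) (Nat.mul x19 y25)) (Nat.add (Nat.add (Nat.mul x25 y19) (Nat.mul x28 y15)) (Nat.add (Nat.mul x31 y5) (Nat.mul x33 y0)))),
     Nat.add (Nat.mul x0 y34) (Nat.add (Nat.mul x15 y31) (Nat.add (Nat.mul x25 y25) (Nat.add (Nat.mul x31 y15) (Nat.mul x34 y0))))⟩

/-- the sum -/
def addV : V → V → V
  | ⟨x0,x1,x2,x3,x4,x5,x6,x7,x8,x9,x10,x11,x12,x13,x14,x15,x16,x17,x18,x19,x20,x21,x22,x23,x24,x25,x26,x27,x28,x29,x30,x31,x32,x33,x34⟩, ⟨y0,y1,y2,y3,y4,y5,y6,y7,y8,y9,y10,y11,y12,y13,y14,y15,y16,y17,y18,y19,y20,y21,y22,y23,y24,y25,y26,y27,y28,y29,y30,y31,y32,y33,y34⟩ =>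
    ⟨Nat.add x0 y0, Nat.add x1 y1, Nat.add x2 y2, Nat.add x3 y3, Nat.add x4 y4, Nat.add x5 y5, Nat.add x6 y6, Nat.add x7 y7, Nat.add x8 y8, Nat.add x9 y9, Nat.add x10 y10, Nat.add x11 y11, Nat.add x12 y12, Nat.add x13 y13, Nat.add x14 y14, Nat.add x15 y15, Nat.add x16 y16, Nat.add x17 y17, Nat.add x18 y18, Nat.add x19 y19, Nat.add x20 y20, Nat.add x21 y21, Nat.add x22 y22, Nat.add x23 y23, Nat.add x24 y24, Nat.add x25 y25, Nat.add x26 y26, Nat.add x27 y27, Nat.add x28 y28, Nat.add x29 y29, Nat.add x30 y30, Nat.add x31 y31, Nat.add x32 y32, Nat.add x33 y33, Nat.add x34 y34⟩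

/-- the sum of the coefficients -/
def majV : V → Nat
  | ⟨x0,x1,x2,x3,x4,x5,x6,x7,x8,x9,x10,x11,x12,x13,x14,x15,x16,x17,x18,x19,x20,x21,x22,x23,x24,x25,x26,x27,x28,x29,x30,x31,x32,x33,x34⟩ =>
    Nat.add (Nat.add (Nat.add x0 (Nat.add x1 (Nat.add x2 (Nat.add x3 (Nat.add x4 (0)))))) (Nat.add (Nat.add x5 (Nat.add x6 (Nat.add x7 (Nat.add x8 (0))))) (Nat.add (Nat.add x9 (Nat.add x10 (Nat.add x11 (0)))) (Nat.add (Nat.add x12 (Nat.add x13 (0))) (Nat.add (Nat.add x14 (0)) (0)))))) (Nat.add (Nat.add (Nat.add x15 (Nat.add x16 (Nat.add x17 (Nat.add x18 (0))))) (Nat.add (Nat.add x19 (Nat.add x20 (Nat.add x21 (0)))) (Nat.add (Nat.add x22 (Nat.add x23 (0))) (Nat.add (Nat.add x24 (0)) (0))))) (Nat.add (Nat.add (Nat.add x25 (Nat.add x26 (Nat.add x27 (0)))) (Nat.add (Nat.add x28 (Nat.add x29 (0))) (Nat.add (Nat.add x30 (0)) (0)))) (Nat.add (Nat.add (Nat.add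 x31 (Nat.add x32 (0))) (Nat.add (Nat.add x33 (0)) (0))) (Nat.add (Nat.add (Nat.add x34 (0)) (0)) (0)))))

/-- coefficientwise `(a - b) / K` -/
def fixV (K : Nat) : V → V → V
  | ⟨x0,x1,x2,x3,x4,x5,x6,x7,x8,x9,x10,x11,x12,x13,x14,x15,x16,x17,x18,x19,x20,x21,x22,x23,x24,x25,x26,x27,x28,x29,x30,x31,x32,x33,x34⟩, ⟨y0,y1,y2,y3,y4,y5,y6,y7,y8,y9,y10,y11,y12,y13,y14,y15,y16,y17,y18,y19,y20,y21,y22,y23,y24,y25,y26,y27,y28,y29,y30,y31,y32,y33,y34⟩ =>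
    ⟨Nat.div (Nat.sub x0 y0) K, Nat.div (Nat.sub x1 y1) K, Nat.div (Nat.sub x2 y2) K, Nat.div (Nat.sub x3 y3) K, Nat.div (Nat.sub x4 y4) K, Nat.div (Nat.sub x5 y5) K, Nat.div (Nat.sub x6 y6) K, Nat.div (Nat.sub x7 y7) K, Nat.div (Nat.sub x8 y8) K, Nat.div (Nat.sub x9 y9) K, Nat.div (Nat.sub x10 y10) K, Nat.div (Nat.sub x11 y11) K, Nat.div (Nat.sub x12 y12) K, Nat.div (Nat.sub x13 y13) K, Nat.div (Nat.sub x14 y14) K, Nat.div (Nat.sub x15 y15) K, Nat.div (Nat.sub x16 y16) K, Nat.div (Nat.sub x17 y17) K, Nat.div (Nat.sub x18 y18) K, Nat.div (Nat.sub x19 y19) K, Nat.div (Nat.sub x20 y20) K, Nat.div (Nat.sub x21 y21) K, Nat.div (Nat.sub x22 y22) K, Nat.div (Nat.sub x23 y23) K, Nat.div (Nat.sub x24 y24) K, Nat.div (Nat.sub x25 y25) K, Nat.div (Nat.sub x26 y26) K, Nat.div (Nat.sub x27 y27) K, Nat.div (Nat.sub x28 y28) K, Nat.div (Nat.sub x29 y29)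 K, Nat.div (Nat.sub x30 y30) K, Nat.div (Nat.sub x31 y31) K, Nat.div (Nat.sub x32 y32) K, Nat.div (Nat.sub x33 y33) K, Nat.div (Nat.sub x34 y34) K⟩

/-- coefficientwise `a - b` -/
def cutV : V → V → V
  | ⟨x0,x1,x2,x3,x4,x5,x6,x7,x8,x9,x10,x11,x12,x13,x14,x15,x16,x17,x18,x19,x20,x21,x22,x23,x24,x25,x26,x27,x28,x29,x30,x31,x32,x33,x34⟩, ⟨y0,y1,y2,y3,y4,y5,y6,y7,y8,y9,y10,y11,y12,y13,y14,y15,y16,y17,y18,y19,y20,y21,y22,y23,y24,y25,y26,y27,y28,y29,y30,y31,y32,y33,y34⟩ =>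
    ⟨Nat.sub x0 y0, Nat.sub x1 y1, Nat.sub x2 y2, Nat.sub x3 y3, Nat.sub x4 y4, Nat.sub x5 y5, Nat.sub x6 y6, Nat.sub x7 y7, Nat.sub x8 y8, Nat.sub x9 y9, Nat.sub x10 y10, Nat.sub x11 y11, Nat.sub x12 y12, Nat.sub x13 y13, Nat.sub x14 y14, Nat.sub x15 y15, Nat.sub x16 y16, Nat.sub x17 y17, Nat.sub x18 y18, Nat.sub x19 y19, Nat.sub x20 y20, Nat.sub x21 y21, Nat.sub x22 y22, Nat.sub x23 y23, Nat.sub x24 y24, Nat.sub x25 y25, Nat.sub x26 y26, Nat.sub x27 y27, Nat.sub x28 y28, Nat.sub x29 y29, Nat.sub x30 y30, Nat.sub x31 y31, Nat.sub x32 y32, Nat.sub x33 y33, Nat.sub x34 y34⟩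

/-- coefficientwise `a * num / den` -/
def sclV (num den : Nat) : V → V
  | ⟨x0,x1,x2,x3,x4,x5,x6,x7,x8,x9,x10,x11,x12,x13,x14,x15,x16,x17,x18,x19,x20,x21,x22,x23,x24,x25,x26,x27,x28,x29,x30,x31,x32,x33,x34⟩ =>
    ⟨Nat.div (Nat.mul x0 num) den, Nat.div (Nat.mul x1 num) den, Nat.div (Nat.mul x2 num) den, Nat.div (Nat.mul x3 num) den, Nat.div (Nat.mul x4 num) den, Nat.div (Nat.mul x5 num) den, Nat.div (Nat.mul x6 num) den, Nat.div (Nat.mul x7 num) den, Nat.div (Nat.mul x8 num) den, Nat.div (Nat.mul x9 num) den, Nat.div (Nat.mul x10 num) den, Nat.div (Nat.mul x11 num) den, Nat.div (Nat.mul x12 num) den, Nat.div (Nat.mul x13 num) den, Nat.div (Nat.mul x14 num) den, Nat.div (Nat.mul x15 num) den, Nat.div (Nat.mul x16 num) den, Nat.div (Nat.mul x17 num) den, Nat.div (Nat.mul x18 num) den, Nat.div (Nat.mul x19 num) den, Nat.div (Nat.mul x20 num)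 den, Nat.div (Nat.mul x21 num) den, Nat.div (Nat.mul x22 num) den, Nat.div (Nat.mul x23 num) den, Nat.div (Nat.mul x24 num) den, Nat.div (Nat.mul x25 num) den, Nat.div (Nat.mul x26 num) den, Nat.div (Nat.mul x27 num) den, Nat.div (Nat.mul x28 num) den, Nat.div (Nat.mul x29 num) den, Nat.div (Nat.mul x30 num) den, Nat.div (Nat.mul x31 num) den, Nat.div (Nat.mul x32 num) den, Nat.div (Nat.mul x33 num) den, Nat.div (Nat.mul x34 num) den⟩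

/-- evaluate a number first, then go on -/
def fN {α : Type} (n : Nat) (k : Nat → α) : α :=
  match n with
  | 0 => k 0
  | Nat.succ m => k (Nat.succ m)

/-- evaluate all coefficients first, then go on -/
def fV {α : Type} (k : V → α) : V → α
  | ⟨x0,x1,x2,x3,x4,x5,x6,x7,x8,x9,x10,x11,x12,x13,x14,x15,x16,x17,x18,x19,x20,x21,x22,x23,x24,x25,x26,x27,x28,x29,x30,x31,x32,x33,x34⟩ =>
    fN x0 fun z0 =>
    fN x1 fun z1 => fN x2 fun z2 => fN x3 fun z3 => fN x4 fun z4 => fN x5 fun z5 => fN x6 fun z6 => fN x7 fun z7 =>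
    fN x8 fun z8 => fN x9 fun z9 => fN x10 fun z10 => fN x11 fun z11 => fN x12 fun z12 => fN x13 fun z13 => fN x14 fun z14 =>
    fN x15 fun z15 => fN x16 fun z16 => fN x17 fun z17 => fN x18 fun z18 => fN x19 fun z19 => fN x20 fun z20 => fN x21 fun z21 =>
    fN x22 fun z22 => fN x23 fun z23 => fN x24 fun z24 => fN x25 fun z25 => fN x26 fun z26 => fN x27 fun z27 => fN x28 fun z28 =>
    fN x29 fun z29 => fN x30 fun z30 => fN x31 fun z31 => fN x32 fun z32 => fN x33 fun z33 => fN x34 fun z34 => k ⟨z0,z1,z2,z3,z4,z5,z6,z7,z8,z9,z10,z11,z12,z13,z14,z15,z16,z17,z18,z19,z20,z21,z22,z23,z24,z25,z26,z27,z28,z29,z30,z31,z32,z33,z34⟩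

/-- the constant coefficient -/
def c0V : V → Nat
  | ⟨x0,x1,x2,x3,x4,x5,x6,x7,x8,x9,x10,x11,x12,x13,x14,x15,x16,x17,x18,x19,x20,x21,x22,x23,x24,x25,x26,x27,x28,x29,x30,x31,x32,x33,x34⟩ => x0

/-- the same polynomial without constant coefficient -/
def dropV : V → V
  | ⟨x0,x1,x2,x3,x4,x5,x6,x7,x8,x9,x10,x11,x12,x13,x14,x15,x16,x17,x18,x19,x20,x21,x22,x23,x24,x25,x26,x27,x28,x29,x30,x31,x32,x33,x34⟩ => ⟨0,x1,x2,x3,x4,x5,x6,x7,x8,x9,x10,x11,x12,x13,x14,x15,x16,x17,x18,x19,x20,x21,x22,x23,x24,x25,x26,x27,x28,x29,x30,x31,x32,x33,x34⟩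

/-- zero -/
def zeroV : V := ⟨0,0,0,0,0,0,0,0,0,0,0,0,0,0,0,0,0,0,0,0,0,0,0,0,0,0,0,0,0,0,0,0,0,0,0⟩

/-- constant -/
def cstV (a : Nat) : V := ⟨a,0,0,0,0,0,0,0,0,0,0,0,0,0,0,0,0,0,0,0,0,0,0,0,0,0,0,0,0,0,0,0,0,0,0⟩

/-- `a + b s1` -/
def var1V (a b : Nat) : V := ⟨a,0,0,0,0,0,0,0,0,0,0,0,0,0,0,b,0,0,0,0,0,0,0,0,0,0,0,0,0,0,0,0,0,0,0⟩
def var2V (a b : Nat) : V := ⟨a,0,0,0,0,b,0,0,0,0,0,0,0,0,0,0,0,0,0,0,0,0,0,0,0,0,0,0,0,0,0,0,0,0,0⟩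
def var3V (a b : Nat) : V := ⟨a,b,0,0,0,0,0,0,0,0,0,0,0,0,0,0,0,0,0,0,0,0,0,0,0,0,0,0,0,0,0,0,0,0,0⟩

theorem toP3_mulV (x y : V) : toP3 (mulV x y) = mul3 4 (toP3 x) (toP3 y) := by
  cases x; cases y; rfl

theorem toP3_addV (x y : V) : toP3 (addV x y) = add3 (toP3 x) (toP3 y) := by
  cases x; cases y; rfl

theorem majV_eq (x : V) : majV x = maj3 (toP3 x) := by
  cases x; rfl

theorem toP3_cutV (x y : V) : toP3 (cutV x y) = cut3 (toP3 x) (toP3 y) := by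
  cases x; cases y; rfl

theorem toP3_sclV (num den : Nat) (x : V) : toP3 (sclV num den x) = scl3 num den (toP3 x) := by
  cases x; rfl

theorem toP3_fixV (K : Nat) (x y : V) : toP3 (fixV K x y) = fix3 K (toP3 x) (toP3 y) := by
  cases x; cases y; rfl

end Vale.Agent.Lib.P154.TM
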