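import Vale.Agent.Lib.P154.TM.FunM

/-!
Soundness of the elementary functions of models: `expBr_spec`, `expSign_spec`, `logS_spec` in `FunC`,
`expC_spec`, `logC_spec` in `FunM`.
-/
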